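import Vale.Agent.P275OS.Jet
import Vale.Agent.P275HN.Defs
import Mathlib.Analysis.SpecialFunctions.Complex.Analytic

/-!
# P275, block TWX (helper93): weights for the twists by a moving point
-/

set_option linter.all false

open scoped Topology ContDiff
open Filter Set Complex Metric
open Vale.Agent.P275GC Vale.Agent.P275GC.At Vale.Agent.P275OS Vale.Agent.P275HN
open Vale.Agent.P275NA (Fm Cy Tw)

namespace Vale.Agent.P275HW

/-- jointly continuous families converge locally uniformly -/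
theorem tlu {T E ι : Type} [TopologicalSpace T] [NormedAddCommGroup E] [NormedSpace ℝ E]
    {f : T → ℂ → E} {t : T} {U : Set ℂ} {p : Filter ι} {s : ι → T} (hs : Tendsto s p (𝓝 t))
    (h : ∀ w ∈ U, J t w 0 f) : TendstoLocallyUniformlyOn (fun k => f (s k)) (f t) p U :=
  tendstoLocallyUniformlyOn_iff_forall_tendsto.2 fun w k =>
    have m : Tendsto Prod.snd (p ×ˢ 𝓝[U] w) (𝓝 w) := tendsto_snd.mono_right nhdsWithin_le_nhds
    (Tendsto.prodMk_nhds ((h w k).c0.tendsto.comp (tendsto_const_nhds.prodMk_nhds m))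
      ((h w k).c0.tendsto.comp ((hs.comp tendsto_fst).prodMk_nhds m))).mono_right
        (nhds_le_uniformity _)

variable {C : Type} [TopologicalSpace C] [T2Space C] {A : At C} {x y : C} {r : ℝ} {h1 : 1 < r}
  {h2 : r < A.R} {i j : Fin A.N} {w : ℂ} {k : ℕ}

theorem tw_kx (h : A.Nr x r y) :
    Tw (A.res r h1 h2.le) (kx A x y) ((A.res r h1 h2.le).mt (A.ox x y)) :=
  have M := (h.cc (h1 := h1) (h2 := h2.le)).mt
  ⟨(A.res r h1 h2.le).cc_d.tens h.cc, M.sm, M.pos, fun (i j : Fin A.N) w a => by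
    rw [M.tr i j w a, kx, map_mul, res_d]; ring⟩

theorem hf_ox (a : w ∈ (A.res r h1 h2.le).O i j) : Hf x w fun y => A.ox x y i j :=
  have b := O_nhds (A := A.res r h1 h2.le) a
  ⟨((ev1 (nr_ev x h2)).and (ev2 b)).mono fun _ c =>
    (c.1.an_ox (h1 := h1) (h2 := h2.le) c.2).differentiableAt, eventually_of_mem b fun _ c =>
      cont_ox (Y := id) (h1 := h1) (h2 := h2.le) continuousAt_id (nr_self x h2.le) c⟩

theorem hf_comp {T F : Type} [TopologicalSpace T] [NormedAddCommGroup F] [NormedSpace ℝ F]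
    [NormedSpace ℂ F] {t : T} {f : T → ℂ → F} {φ : ℂ → ℂ} (h : Hf t (φ w) f)
    (hφ : AnalyticAt ℂ φ w) : Hf t w fun s z => f s (φ z) :=
  have c : ∀ {z}, AnalyticAt ℂ φ z → ContinuousAt (fun p : T × ℂ => (p.1, φ p.2)) (t, z) :=
    fun a => continuousAt_fst.prodMk (a.continuousAt.comp_of_eq continuousAt_snd rfl)
  ⟨(((c hφ).eventually h.1).and (ev2 hφ.eventually_analyticAt)).mono fun p a =>
    DifferentiableAt.comp p.2 (g := f p.1) a.1 a.2.differentiableAt, ((hφ.continuousAt.eventually h.2).and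
      hφ.eventually_analyticAt).mono fun _ a => a.1.c0.comp_of_eq (c a.2) rfl⟩

/-- the canonical metrics of a holomorphic family of line bundles -/
theorem j_mt {T : Type} [TopologicalSpace T] {t : T} {l : T → Cy A ℂ}
    (h : ∀ i j, ∀ w ∈ A.O i j, Hf t w fun s => l s i j) (a : w ∈ ball (0 : ℂ) A.R) :
    J t w k fun s => A.mt (l s) i := j_sum _ fun j => by
  by_cases b : w ∈ A.O i j
  swap
  · exact (j_fix contDiffAt_const).congr ((ev2 (ev_φ a b)).mono fun _ e => by rw [e, zero_mul])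
  exact (j_fix (((sm_φ j).at a i).of_le (mod_cast le_top))).cmp (· * ·)
    ((hf_comp (h j i _ (tr_mem b)) (an_tr b)).j.comp (Φ := fun c => c.re * c.re + c.im * c.im)
      (((reCLM.analyticAt _).mul (reCLM.analyticAt _)).add
        ((imCLM.analyticAt _).mul (imCLM.analyticAt _)))) (analyticAt_fst.mul analyticAt_snd)

theorem twx (A : At C) : TWX A := by
  intro xs x r h1 h2 hx
  let f : Fin A.N → C → ℂ → ℝ := fun i y =>
    P275NA.lp fun z => Real.log ((A.res r h1 h2.le).mt (A.ox x y) i z)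
  have N := nr_self (A := A) x h2.le
  have jm : ∀ k i, ∀ w ∈ ball (0 : ℂ) r, J x w k fun y => (A.res r h1 h2.le).mt (A.ox x y) i :=
    fun k i w => j_mt (A := A.res r h1 h2.le) fun _ _ _ => hf_ox (h2 := h2)
  have jf : ∀ i, ∀ w ∈ ball (0 : ℂ) r, J x w 0 (f i) := fun i w a =>
    (((jm 2 i w a).comp (analyticAt_log ((tw_kx (h2 := h2) N).pos i w a))).comp
      (ofRealCLM.analyticAt _)).dz.db.comp (reCLM.analyticAt _)
  obtain ⟨M, -, hM⟩ := Ct.bdd (A := A.res r h1 h2.le) (u := fun i => f i x) (fun i w a =>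
    ((jf i w a).c0.comp_of_eq (Continuous.prodMk_right x).continuousAt rfl).continuousWithinAt) h1
  obtain ⟨k₀, hk⟩ := eventually_atTop.1 (hx.eventually ((nr_ev x h2).and (eventually_all.2 fun i =>
    (isCompact_closedBall (0 : ℂ) 1).eventually_forall_of_forall_eventually
      (P := fun y z => |f i y z| ≤ M + 1) fun w a =>
        (jf i w (closedBall_subset_ball h1 a)).c0.norm.eventually_le_const
          ((hM i w (mem_closedBall_zero_iff.1 a)).trans_lt (lt_add_one M)))))
  have t := hx.comp (tendsto_add_atTop_nat k₀)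
  exact ⟨k₀, _, _, fun k => (hk _ le_add_self).1,
    fun k => tw_kx (h2 := h2) (hk _ le_add_self).1, tw_kx (h2 := h2) N,
    fun i j => tlu (f := fun y => kx A x y i j) t fun w a =>
      ((an_d (res_O.1 a).1).continuousAt.comp_of_eq continuousAt_snd rfl).mul
        (hf_ox (h2 := h2) a).2.self_of_nhds,
    fun i => tlu (f := fun y => (A.res r h1 h2.le).mt (A.ox x y) i) t (jm 0 i),
    M + 1, fun k i z a => (hk _ le_add_self).2 i z (ball_subset_closedBall a)⟩

end Vale.Agent.P275HW
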